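import Vale.Agent.P333.H537.Tf.I1.Str

set_option autoImplicit false

/-!
P333: a family of strings for which every run of the greedy algorithm gives a superstring longer
than twice a shortest one. The strings are packed as numbers in base 8.
-/

namespace Vale.Agent.P333.H537.Tf.I1

open Vale.Agent.P333 Vale.Agent.P333.H537.Tf

theorem red : Greedy.Reduced (fam.map str) (fam.map str) :=
  reduced_of (by decide +kernel) (by decide +kernel)

theorem opt_le : opt (fam.map str) ≤ 1628 :=
  opt_le_of tt [1218, 912, 699, 394, 169, 2, 1315, 967, 706, 456, 185, 5, 1318, 1133, 890, 589, 362, 159,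
    0] (by decide +kernel)

theorem out16 : Out [m15, m12, m10] 3302 :=
  out_zero (by decide +kernel) (by decide +kernel) (by decide +kernel)

theorem out15 : Out
    [m14, m12, m11, m10] 3302 :=
  out_step m11 m14 m15
    [m12, m10] 3
    ((List.perm_middle (l₁ := [m14, m12]) (a := m11)
      (l₂ := [m10])).trans
      ((List.perm_middle (l₁ := []) (a := m14)
      (l₂ := [m12, m10])).cons m11))
    (by decide +kernel) (by decide +kernel) (by decide +kernel) (by decide +kernel)
    (by decide +kernel) (by decide +kernel) (by decide +kernel) out16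

theorem out14 : Out
    [m13, m12, m11, m10, m5] 3302 :=
  out_step m13 m5 m14
    [m12, m11, m10] 8
    ((List.perm_middle (l₁ := []) (a := m13)
      (l₂ := [m12, m11, m10, m5])).trans
      ((List.perm_middle (l₁ := [m12, m11, m10]) (a := m5)
      (l₂ := [])).cons m13))
    (by decide +kernel) (by decide +kernel) (by decide +kernel) (by decide +kernel)
    (by decide +kernel) (by decide +kernel) (by decide +kernel) out15

theorem out13 : Out
    [m12, m11, m10, m9, m5, m1] 3302 :=
  out_step m9 m1 m13
    [m12, m11, m10, m5] 17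
    ((List.perm_middle (l₁ := [m12, m11, m10]) (a := m9)
      (l₂ := [m5, m1])).trans
      ((List.perm_middle (l₁ := [m12, m11, m10, m5]) (a := m1)
      (l₂ := [])).cons m9))
    (by decide +kernel) (by decide +kernel) (by decide +kernel) (by decide +kernel)
    (by decide +kernel) (by decide +kernel) (by decide +kernel) out14

theorem out12 : Out
    [m11, m10, m9, m7, m5, m3, m1] 3302 :=
  out_step m3 m7 m12
    [m11, m10, m9, m5, m1] 58
    ((List.perm_middle (l₁ := [m11, m10, m9, m7, m5]) (a := m3)
      (l₂ := [m1])).trans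
      ((List.perm_middle (l₁ := [m11, m10, m9]) (a := m7)
      (l₂ := [m5, m1])).cons m3))
    (by decide +kernel) (by decide +kernel) (by decide +kernel) (by decide +kernel)
    (by decide +kernel) (by decide +kernel) (by decide +kernel) out13

theorem out11 : Out
    [m10, m9, m7, m5, m3, m1, s5, s11] 3302 :=
  out_step s5 s11 m11
    [m10, m9, m7, m5, m3, m1] 194
    ((List.perm_middle (l₁ := [m10, m9, m7, m5, m3, m1]) (a := s5)
      (l₂ := [s11])).trans
      ((List.perm_middle (l₁ := [m10, m9, m7, m5, m3, m1]) (a := s11)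
      (l₂ := [])).cons s5))
    (by decide +kernel) (by decide +kernel) (by decide +kernel) (by decide +kernel)
    (by decide +kernel) (by decide +kernel) (by decide +kernel) out12

theorem out10 : Out
    [m9, m8, m7, m5, m3, m1, s5, s11, s18] 3302 :=
  out_step m8 s18 m10
    [m9, m7, m5, m3, m1, s5, s11] 196
    ((List.perm_middle (l₁ := [m9]) (a := m8)
      (l₂ := [m7, m5, m3, m1, s5, s11, s18])).trans
      ((List.perm_middle (l₁ := [m9, m7, m5, m3, m1, s5, s11]) (a := s18)
      (l₂ := [])).cons m8))
    (by decide +kernel) (by decide +kernel) (by decide +kernel) (by decide +kernel)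
    (by decide +kernel) (by decide +kernel) (by decide +kernel) out11

theorem out9 : Out
    [m8, m7, m5, m3, m1, s2, s5, s8, s11, s18] 3302 :=
  out_step s2 s8 m9
    [m8, m7, m5, m3, m1, s5, s11, s18] 272
    ((List.perm_middle (l₁ := [m8, m7, m5, m3, m1]) (a := s2)
      (l₂ := [s5, s8, s11, s18])).trans
      ((List.perm_middle (l₁ := [m8, m7, m5, m3, m1, s5]) (a := s8)
      (l₂ := [s11, s18])).cons s2))
    (by decide +kernel) (by decide +kernel) (by decide +kernel) (by decide +kernel)
    (by decide +kernel) (by decide +kernel) (by decide +kernel) out10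

theorem out8 : Out
    [m7, m6, m5, m4, m3, m1, s2, s5, s8, s11, s18] 3302 :=
  out_step m4 m6 m8
    [m7, m5, m3, m1, s2, s5, s8, s11, s18] 274
    ((List.perm_middle (l₁ := [m7, m6, m5]) (a := m4)
      (l₂ := [m3, m1, s2, s5, s8, s11, s18])).trans
      ((List.perm_middle (l₁ := [m7]) (a := m6)
      (l₂ := [m5, m3, m1, s2, s5, s8, s11, s18])).cons m4))
    (by decide +kernel) (by decide +kernel) (by decide +kernel) (by decide +kernel)
    (by decide +kernel) (by decide +kernel) (by decide +kernel) out9

theorem out7 : Out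
    [m6, m5, m4, m3, m1, s2, s3, s5, s8, s9, s11, s18] 3302 :=
  out_step s3 s9 m7
    [m6, m5, m4, m3, m1, s2, s5, s8, s11, s18] 302
    ((List.perm_middle (l₁ := [m6, m5, m4, m3, m1, s2]) (a := s3)
      (l₂ := [s5, s8, s9, s11, s18])).trans
      ((List.perm_middle (l₁ := [m6, m5, m4, m3, m1, s2, s5, s8]) (a := s9)
      (l₂ := [s11, s18])).cons s3))
    (by decide +kernel) (by decide +kernel) (by decide +kernel) (by decide +kernel)
    (by decide +kernel) (by decide +kernel) (by decide +kernel) out8

theorem out6 : Out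
    [m5, m4, m3, m2, m1, s2, s3, s5, s8, s9, s11, s15, s18] 3302 :=
  out_step s15 m2 m6
    [m5, m4, m3, m1, s2, s3, s5, s8, s9, s11, s18] 304
    ((List.perm_middle (l₁ := [m5, m4, m3, m2, m1, s2, s3, s5, s8, s9, s11]) (a := s15)
      (l₂ := [s18])).trans
      ((List.perm_middle (l₁ := [m5, m4, m3]) (a := m2)
      (l₂ := [m1, s2, s3, s5, s8, s9, s11, s18])).cons s15))
    (by decide +kernel) (by decide +kernel) (by decide +kernel) (by decide +kernel)
    (by decide +kernel) (by decide +kernel) (by decide +kernel) out7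

theorem out5 : Out
    [m4, m3, m2, m1, s0, s2, s3, s5, s6, s8, s9, s11, s15, s18] 3302 :=
  out_step s0 s6 m5
    [m4, m3, m2, m1, s2, s3, s5, s8, s9, s11, s15, s18] 307
    ((List.perm_middle (l₁ := [m4, m3, m2, m1]) (a := s0)
      (l₂ := [s2, s3, s5, s6, s8, s9, s11, s15, s18])).trans
      ((List.perm_middle (l₁ := [m4, m3, m2, m1, s2, s3, s5]) (a := s6)
      (l₂ := [s8, s9, s11, s15, s18])).cons s0))
    (by decide +kernel) (by decide +kernel) (by decide +kernel) (by decide +kernel)
    (by decide +kernel) (by decide +kernel) (by decide +kernel) out6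

theorem out4 : Out
    [m3, m2, m1, m0, s0, s2, s3, s5, s6, s8, s9, s11, s12, s15, s18] 3302 :=
  out_step s12 m0 m4
    [m3, m2, m1, s0, s2, s3, s5, s6, s8, s9, s11, s15, s18] 309
    ((List.perm_middle (l₁ := [m3, m2, m1, m0, s0, s2, s3, s5, s6, s8, s9, s11]) (a := s12)
      (l₂ := [s15, s18])).trans
      ((List.perm_middle (l₁ := [m3, m2, m1]) (a := m0)
      (l₂ := [s0, s2, s3, s5, s6, s8, s9, s11, s15, s18])).cons s12))
    (by decide +kernel) (by decide +kernel) (by decide +kernel) (by decide +kernel)
    (by decide +kernel) (by decide +kernel) (by decide +kernel) out5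

theorem out3 : Out
    [m2, m1, m0, s0, s2, s3, s4, s5, s6, s8, s9, s10, s11, s12, s15, s18] 3302 :=
  out_step s4 s10 m3
    [m2, m1, m0, s0, s2, s3, s5, s6, s8, s9, s11, s12, s15, s18] 329
    ((List.perm_middle (l₁ := [m2, m1, m0, s0, s2, s3]) (a := s4)
      (l₂ := [s5, s6, s8, s9, s10, s11, s12, s15, s18])).trans
      ((List.perm_middle (l₁ := [m2, m1, m0, s0, s2, s3, s5, s6, s8, s9]) (a := s10)
      (l₂ := [s11, s12, s15, s18])).cons s4))
    (by decide +kernel) (by decide +kernel) (by decide +kernel) (by decide +kernel)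
    (by decide +kernel) (by decide +kernel) (by decide +kernel) out4

theorem out2 : Out
    [m1, m0, s0, s2, s3, s4, s5, s6, s8, s9, s10, s11, s12, s15, s16, s17, s18] 3302 :=
  out_step s16 s17 m2
    [m1, m0, s0, s2, s3, s4, s5, s6, s8, s9, s10, s11, s12, s15, s18] 331
    ((List.perm_middle (l₁ := [m1, m0, s0, s2, s3, s4, s5, s6, s8, s9, s10, s11, s12, s15]) (a := s16)
      (l₂ := [s17, s18])).trans
      ((List.perm_middle (l₁ := [m1, m0, s0, s2, s3, s4, s5, s6, s8, s9, s10, s11, s12, s15]) (a := s17)
      (l₂ := [s18])).cons s16))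
    (by decide +kernel) (by decide +kernel) (by decide +kernel) (by decide +kernel)
    (by decide +kernel) (by decide +kernel) (by decide +kernel) out3

theorem out1 : Out
    [m0, s0, s1, s2, s3, s4, s5, s6, s7, s8, s9, s10, s11, s12, s15, s16, s17, s18] 3302 :=
  out_step s1 s7 m1
    [m0, s0, s2, s3, s4, s5, s6, s8, s9, s10, s11, s12, s15, s16, s17, s18] 367
    ((List.perm_middle (l₁ := [m0, s0]) (a := s1)
      (l₂ := [s2, s3, s4, s5, s6, s7, s8, s9, s10, s11, s12, s15, s16, s17, s18])).trans
      ((List.perm_middle (l₁ := [m0, s0, s2, s3, s4, s5, s6]) (a := s7)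
      (l₂ := [s8, s9, s10, s11, s12, s15, s16, s17, s18])).cons s1))
    (by decide +kernel) (by decide +kernel) (by decide +kernel) (by decide +kernel)
    (by decide +kernel) (by decide +kernel) (by decide +kernel) out2

theorem out0 : Out
    [s0, s1, s2, s3, s4, s5, s6, s7, s8, s9, s10, s11, s12, s13, s14, s15, s16, s17, s18] 3302 :=
  out_step s13 s14 m0
    [s0, s1, s2, s3, s4, s5, s6, s7, s8, s9, s10, s11, s12, s15, s16, s17, s18] 369
    ((List.perm_middle (l₁ := [s0, s1, s2, s3, s4, s5, s6, s7, s8, s9, s10, s11, s12]) (a := s13)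
      (l₂ := [s14, s15, s16, s17, s18])).trans
      ((List.perm_middle (l₁ := [s0, s1, s2, s3, s4, s5, s6, s7, s8, s9, s10, s11, s12]) (a := s14)
      (l₂ := [s15, s16, s17, s18])).cons s13))
    (by decide +kernel) (by decide +kernel) (by decide +kernel) (by decide +kernel)
    (by decide +kernel) (by decide +kernel) (by decide +kernel) out1

/-- **Every output of the greedy algorithm is longer than twice a shortest superstring.** -/
theorem main : ∃ S : List (List ℕ), S ≠ [] ∧ Greedy.Reduced S S ∧
    ∀ t : List ℕ, Greedy.Output S t → 2 * opt S < t.length ∧ 507 * opt S ≤ 250 * t.length := by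
  refine ⟨fam.map str, by decide +kernel, red, fun t ht => ?_⟩
  have h1 := opt_le
  have h2 := output_all red out0 ht
  omega

end Vale.Agent.P333.H537.Tf.I1
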